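import Mathlib

/-!
# Rademacher signs on the circle and the random exponents

`sqw` is the square wave on the circle `ℝ/ℤ`, `rad k` the `k`-th Rademacher function and `expo σ n`
the random exponent `∑_{l < |n|} rad (log_8 l) σ`.
-/

namespace Vale.Agent.P131

open Finset

/-! ### Deterministic facts about sign sequences -/

/-- Sums of a sequence are Lipschitz when the terms are bounded by one. -/
theorem sum_lip (ε : ℕ → ℤ) (hε : ∀ l, |ε l| ≤ 1) {m n : ℕ} (hmn : m ≤ n) :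
    |(∑ l ∈ range n, ε l) - ∑ l ∈ range m, ε l| ≤ (n : ℤ) - m := by
  rw [← sum_Ico_eq_sub _ hmn]
  refine (abs_sum_le_sum_abs _ _).trans ?_
  refine (sum_le_card_nsmul _ _ 1 (fun l _ => hε l)).trans ?_
  rw [Nat.card_Ico, nsmul_eq_mul, mul_one]
  omega

theorem sum_lip' (ε : ℕ → ℤ) (hε : ∀ l, |ε l| ≤ 1) (m n : ℕ) :
    |(∑ l ∈ range n, ε l) - ∑ l ∈ range m, ε l| ≤ |(n : ℤ) - m| := by
  rcases le_total m n with h | h
  · refine (sum_lip ε hε h).trans (le_abs_self _)
  · rw [abs_sub_comm, abs_sub_comm (n : ℤ)]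
    refine (sum_lip ε hε h).trans (le_abs_self _)

theorem upper_of_neg (ε : ℕ → ℤ) (hε : ∀ l, |ε l| ≤ 1) (a : ℕ)
    (h : ∀ l, a ≤ l → l < 8 * a → ε l = -1) (n : ℕ) (hn : n ≤ 8 * a) :
    ∑ l ∈ range n, ε l ≤ 2 * a - n := by
  rcases le_total n a with hna | hna
  · have h1 := sum_lip ε hε (Nat.zero_le n)
    simp only [range_zero, sum_empty, sub_zero] at h1
    have h2 := (abs_le.mp h1).2
    push_cast at h2
    have : (n : ℤ) ≤ a := by exact_mod_cast hna
    linarith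
  · have h1 := sum_lip ε hε (Nat.zero_le a)
    simp only [range_zero, sum_empty, sub_zero] at h1
    have h2 := (abs_le.mp h1).2
    have h3 : (∑ l ∈ range n, ε l) - ∑ l ∈ range a, ε l = -((n : ℤ) - a) := by
      rw [← sum_Ico_eq_sub _ hna]
      rw [sum_congr rfl (g := fun _ => (-1 : ℤ))]
      · rw [sum_const, Nat.card_Ico, nsmul_eq_mul]
        push_cast [Nat.cast_sub hna]
        ring
      · intro l hl
        rw [mem_Ico] at hl
        exact h l hl.1 (lt_of_lt_of_le hl.2 hn)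
    push_cast at h2
    linarith

theorem lower_of_pos (ε : ℕ → ℤ) (hε : ∀ l, |ε l| ≤ 1) (a : ℕ)
    (h : ∀ l, a ≤ l → l < 8 * a → ε l = 1) (n : ℕ) (hn : n ≤ 8 * a) :
    (n : ℤ) - 2 * a ≤ ∑ l ∈ range n, ε l := by
  have := upper_of_neg (fun l => -ε l) (fun l => by rw [abs_neg]; exact hε l) a
    (fun l h1 h2 => by rw [h l h1 h2]) n hn
  rw [sum_neg_distrib] at this
  linarith

theorem far_bound (ε ε' : ℕ → ℤ) (hε : ∀ l, |ε l| ≤ 1) (hε' : ∀ l, |ε' l| ≤ 1) (a : ℕ)
    (h : ∀ l, a ≤ l → l < 8 * a → ε l = -1) (h' : ∀ l, a ≤ l → l < 8 * a → ε' l = 1)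
    (heq : ∀ l, 8 * a ≤ l → ε l = ε' l) (n m : ℕ) (hnm : 8 * a < n ∨ 8 * a < m) :
    (∑ l ∈ range n, ε l) - ∑ l ∈ range m, ε' l ≤ -(12 * a) + |(n : ℤ) - m| := by
  have e1 := upper_of_neg ε hε a h (8 * a) le_rfl
  have e2 := lower_of_pos ε' hε' a h' (8 * a) le_rfl
  push_cast at e1 e2
  rcases le_or_gt n (8 * a) with hn | hn
  · have hm : 8 * a < m := by omega
    have f1 := upper_of_neg ε hε a h n hn
    have f2 := (abs_le.mp (sum_lip ε' hε' hm.le)).1
    have f3 := neg_abs_le ((n : ℤ) - m)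
    push_cast at f2
    linarith
  · rcases le_or_gt m (8 * a) with hm | hm
    · have f1 := lower_of_pos ε' hε' a h' m hm
      have f2 := (abs_le.mp (sum_lip ε hε hn.le)).2
      have f3 := le_abs_self ((n : ℤ) - m)
      push_cast at f2
      linarith
    · have g1 : ∀ p, 8 * a ≤ p → (∑ l ∈ range p, ε l) - ∑ l ∈ range (8 * a), ε l
          = (∑ l ∈ range p, ε' l) - ∑ l ∈ range (8 * a), ε' l := by
        intro p hp
        rw [← sum_Ico_eq_sub _ hp, ← sum_Ico_eq_sub _ hp]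
        refine sum_congr rfl (fun l hl => ?_)
        rw [mem_Ico] at hl
        exact heq l hl.1
      have g2 := g1 n hn.le
      have g3 := (abs_le.mp (sum_lip' ε' hε' m n)).2
      linarith

/-! ### Rademacher functions on the circle -/

/-- The square wave: `1` on `[0, 1/2)` and `-1` on `[1/2, 1)`. -/
noncomputable def sqw (y : UnitAddCircle) : ℤ :=
  if ((AddCircle.equivIco 1 0 y : Set.Ico (0 : ℝ) (0 + 1)) : ℝ) < 1 / 2 then 1 else -1

theorem measurable_sqw : Measurable sqw := by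
  refine Measurable.ite ?_ measurable_const measurable_const
  have h : Measurable (fun y : UnitAddCircle =>
      ((AddCircle.measurableEquivIco 1 0 y : Set.Ico (0 : ℝ) (0 + 1)) : ℝ)) :=
    measurable_subtype_coe.comp (AddCircle.measurableEquivIco 1 0).measurable
  exact measurableSet_lt h measurable_const

theorem sqw_abs (y : UnitAddCircle) : |sqw y| ≤ 1 := by
  unfold sqw
  split_ifs <;> simp

theorem sqw_eq (y : UnitAddCircle) : sqw y = 1 ∨ sqw y = -1 := by
  unfold sqw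
  split_ifs <;> simp

theorem sqw_coe {x : ℝ} (hx : x ∈ Set.Ico (0 : ℝ) 1) :
    sqw (x : UnitAddCircle) = if x < 1 / 2 then 1 else -1 := by
  have hx' : x ∈ Set.Ico (0 : ℝ) (0 + 1) := by rwa [zero_add]
  unfold sqw
  rw [AddCircle.equivIco_coe_eq hx']

theorem sqw_add_half (y : UnitAddCircle) : sqw (y + ((1 / 2 : ℝ) : UnitAddCircle)) = -sqw y := by
  obtain ⟨x, hx, rfl⟩ : ∃ x : ℝ, x ∈ Set.Ico (0 : ℝ) 1 ∧ (x : UnitAddCircle) = y := by
    refine ⟨(AddCircle.equivIco 1 0 y : Set.Ico (0 : ℝ) (0 + 1)), ?_, AddCircle.coe_equivIco⟩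
    have := (AddCircle.equivIco 1 0 y : Set.Ico (0 : ℝ) (0 + 1)).2
    exact ⟨this.1, by linarith [this.2]⟩
  rw [sqw_coe hx]
  rw [Set.mem_Ico] at hx
  rcases lt_or_ge x (1 / 2) with h | h
  · have e : (x : UnitAddCircle) + ((1 / 2 : ℝ) : UnitAddCircle)
        = ((x + 1 / 2 : ℝ) : UnitAddCircle) := rfl
    rw [e, sqw_coe (by constructor <;> linarith), if_pos h, if_neg (by linarith)]
  · have e : (x : UnitAddCircle) + ((1 / 2 : ℝ) : UnitAddCircle)
        = ((x - 1 / 2 : ℝ) : UnitAddCircle) := by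
      have h1 : x + 1 / 2 = (x - 1 / 2) + 1 := by ring
      have h2 : ((x + 1 / 2 : ℝ) : UnitAddCircle) = ((x - 1 / 2 : ℝ) : UnitAddCircle) := by
        rw [h1, AddCircle.coe_add_period]
      rw [← h2, AddCircle.coe_add]
    rw [e, sqw_coe (by constructor <;> linarith), if_pos (show x - 1 / 2 < 1 / 2 by linarith),
      if_neg (show ¬ x < 1 / 2 by linarith), neg_neg]

/-- The `k`-th Rademacher function. -/
noncomputable def rad (k : ℕ) (σ : UnitAddCircle) : ℤ := sqw ((2 ^ k : ℕ) • σ)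

theorem measurable_rad (k : ℕ) : Measurable (rad k) :=
  measurable_sqw.comp (continuous_nsmul (2 ^ k)).measurable

theorem rad_abs (k : ℕ) (σ : UnitAddCircle) : |rad k σ| ≤ 1 := sqw_abs _

theorem rad_eq (k : ℕ) (σ : UnitAddCircle) : rad k σ = 1 ∨ rad k σ = -1 := sqw_eq _

/-- The dyadic rotation by `1 / 2^(k+1)`. -/
noncomputable def rot (k : ℕ) : UnitAddCircle := ((1 / ((2 ^ (k + 1) : ℕ) : ℝ) : ℝ) : UnitAddCircle)

theorem smul_rot (k i : ℕ) :
    (2 ^ i : ℕ) • rot k = ((2 ^ i / 2 ^ (k + 1) : ℝ) : UnitAddCircle) := by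
  unfold rot
  rw [← AddCircle.coe_nsmul, nsmul_eq_mul]
  push_cast
  rw [mul_one_div]

theorem rad_add_rot (k : ℕ) (σ : UnitAddCircle) : rad k (σ + rot k) = -rad k σ := by
  unfold rad
  rw [nsmul_add, smul_rot]
  have : (2 : ℝ) ^ k / 2 ^ (k + 1) = 1 / 2 := by
    rw [pow_succ]; field_simp
  rw [this, sqw_add_half]

theorem rad_add_rot_of_lt {k i : ℕ} (h : k < i) (σ : UnitAddCircle) :
    rad i (σ + rot k) = rad i σ := by
  unfold rad
  rw [nsmul_add, smul_rot]
  obtain ⟨d, rfl⟩ := Nat.exists_eq_add_of_le (Nat.succ_le_of_lt h)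
  have : (2 : ℝ) ^ (k.succ + d) / 2 ^ (k + 1) = ((2 ^ d : ℕ) : ℝ) * 1 := by
    rw [Nat.succ_eq_add_one, pow_add]
    push_cast
    field_simp
  rw [this]
  have h2 : (((2 ^ d : ℕ) : ℝ) * 1 : ℝ) = (2 ^ d : ℕ) • (1 : ℝ) := by rw [nsmul_eq_mul]
  rw [h2, AddCircle.coe_nsmul, AddCircle.coe_period, nsmul_zero, add_zero]

theorem rad_sub_rot (k : ℕ) (σ : UnitAddCircle) : rad k (σ - rot k) = -rad k σ := by
  have := rad_add_rot k (σ - rot k)
  rw [sub_add_cancel] at this
  rw [this, neg_neg]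

theorem addOrderOf_rot (k : ℕ) : addOrderOf (rot k) = 2 ^ (k + 1) := by
  unfold rot
  exact AddCircle.addOrderOf_period_div (p := (1 : ℝ)) (by positivity)

theorem tendsto_rot : Filter.Tendsto rot Filter.atTop (nhds 0) := by
  have h1 : Filter.Tendsto (fun k : ℕ => (1 / ((2 ^ (k + 1) : ℕ) : ℝ) : ℝ)) Filter.atTop
      (nhds 0) := by
    have := (tendsto_pow_atTop_nhds_zero_of_lt_one (r := (1 / 2 : ℝ)) (by norm_num)
      (by norm_num)).comp (Filter.tendsto_add_atTop_nat 1)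
    refine this.congr (fun k => ?_)
    simp
  have h2 : Filter.Tendsto (fun x : ℝ => (x : UnitAddCircle)) (nhds 0)
      (nhds ((0 : ℝ) : UnitAddCircle)) := (AddCircle.continuous_mk' 1).continuousAt
  rw [AddCircle.coe_zero] at h2
  exact h2.comp h1

/-! ### The random exponent -/

/-- The exponent `∑_{l < |n|} rad (log_8 l) σ`. -/
noncomputable def expo (σ : UnitAddCircle) (n : ℤ) : ℤ :=
  ∑ l ∈ range n.natAbs, rad (Nat.log 8 l) σ

theorem expo_zero (σ : UnitAddCircle) : expo σ 0 = 0 := by simp [expo]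

theorem measurable_expo (n : ℤ) : Measurable (fun σ => expo σ n) :=
  Finset.measurable_fun_sum _ (fun _ _ => measurable_rad _)

theorem expo_lip (σ : UnitAddCircle) (n m : ℤ) : |expo σ n - expo σ m| ≤ |n - m| := by
  refine (sum_lip' (fun l => rad (Nat.log 8 l) σ) (fun _ => rad_abs _ _) m.natAbs
    n.natAbs).trans ?_
  rw [Int.natCast_natAbs, Int.natCast_natAbs]
  exact abs_abs_sub_abs_le_abs_sub n m

theorem expo_rot (k : ℕ) (σ : UnitAddCircle) (n : ℤ) :
    |expo σ n - expo (σ + rot k) n| ≤ 2 * 8 ^ (k + 1) := by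
  unfold expo
  rw [← sum_sub_distrib]
  refine (abs_sum_le_sum_abs _ _).trans ?_
  rw [← sum_filter_of_ne (p := fun l => l < 8 ^ (k + 1))]
  · refine (sum_le_card_nsmul _ _ 2 (fun l _ => ?_)).trans ?_
    · have h1 := abs_sub (rad (Nat.log 8 l) σ) (rad (Nat.log 8 l) (σ + rot k))
      have h2 := rad_abs (Nat.log 8 l) σ
      have h3 := rad_abs (Nat.log 8 l) (σ + rot k)
      linarith
    · rw [nsmul_eq_mul, mul_comm]
      refine mul_le_mul_of_nonneg_left ?_ (by norm_num)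
      have : ((range n.natAbs).filter (fun l => l < 8 ^ (k + 1))).card ≤ 8 ^ (k + 1) := by
        refine (card_le_card (t := range (8 ^ (k + 1))) ?_).trans_eq (card_range _)
        intro l hl
        rw [mem_filter] at hl
        exact mem_range.mpr hl.2
      exact_mod_cast this
  · intro l _ hne
    by_contra hl
    apply hne
    rw [not_lt] at hl
    have hk : k < Nat.log 8 l := Nat.lt_of_succ_le (Nat.le_log_of_pow_le (by norm_num) hl)
    rw [rad_add_rot_of_lt hk, sub_self, abs_zero]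

theorem log_block {k l : ℕ} (h1 : 8 ^ k ≤ l) (h2 : l < 8 * 8 ^ k) : Nat.log 8 l = k :=
  Nat.log_eq_of_pow_le_of_lt_pow h1 (by rw [pow_succ, mul_comm]; exact h2)

/-- The three estimates needed in the key lemma, for a point `σ` with `rad k σ = -1` and the
rotated point `σ + rot k`. -/
theorem expo_key (k : ℕ) (σ : UnitAddCircle) (hσ : rad k σ = -1) :
    (∀ n : ℤ, |n| ≤ 8 * (8 ^ k : ℕ) → expo σ n ≤ 2 * (8 ^ k : ℕ) - |n|) ∧
    (∀ n : ℤ, |n| ≤ 8 * (8 ^ k : ℕ) → |n| - 2 * (8 ^ k : ℕ) ≤ expo (σ + rot k) n) ∧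
    (∀ n m : ℤ, (8 * ((8 ^ k : ℕ) : ℤ) < |n| ∨ 8 * ((8 ^ k : ℕ) : ℤ) < |m|) →
      expo σ n - expo (σ + rot k) m ≤ -(12 * (8 ^ k : ℕ)) + |n - m|) := by
  have hσ' : rad k (σ + rot k) = 1 := by rw [rad_add_rot, hσ, neg_neg]
  have b1 : ∀ l, 8 ^ k ≤ l → l < 8 * 8 ^ k → rad (Nat.log 8 l) σ = -1 := fun l h1 h2 => by
    rw [log_block h1 h2, hσ]
  have b2 : ∀ l, 8 ^ k ≤ l → l < 8 * 8 ^ k → rad (Nat.log 8 l) (σ + rot k) = 1 :=
    fun l h1 h2 => by rw [log_block h1 h2, hσ']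
  have b3 : ∀ l, 8 * 8 ^ k ≤ l → rad (Nat.log 8 l) σ = rad (Nat.log 8 l) (σ + rot k) := by
    intro l hl
    have hk : k < Nat.log 8 l := Nat.lt_of_succ_le
      (Nat.le_log_of_pow_le (by norm_num) (by rw [Nat.succ_eq_add_one, pow_succ, mul_comm];
                                              exact hl))
    rw [rad_add_rot_of_lt hk]
  refine ⟨fun n hn => ?_, fun n hn => ?_, fun n m hnm => ?_⟩
  · have := upper_of_neg (fun l => rad (Nat.log 8 l) σ) (fun l => rad_abs _ _) (8 ^ k) b1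
      n.natAbs (by rw [← Int.natCast_natAbs] at hn; exact_mod_cast hn)
    rwa [Int.natCast_natAbs] at this
  · have := lower_of_pos (fun l => rad (Nat.log 8 l) (σ + rot k)) (fun l => rad_abs _ _) (8 ^ k)
      b2 n.natAbs (by rw [← Int.natCast_natAbs] at hn; exact_mod_cast hn)
    rwa [Int.natCast_natAbs] at this
  · have := far_bound (fun l => rad (Nat.log 8 l) σ) (fun l => rad (Nat.log 8 l) (σ + rot k))
      (fun l => rad_abs _ _) (fun l => rad_abs _ _) (8 ^ k) b1 b2 b3 n.natAbs m.natAbs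
      (by rw [← Int.natCast_natAbs, ← Int.natCast_natAbs] at hnm; exact_mod_cast hnm)
    refine this.trans ?_
    rw [Int.natCast_natAbs, Int.natCast_natAbs]
    have := abs_abs_sub_abs_le_abs_sub n m
    linarith

end Vale.Agent.P131
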