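import Mathlib
import Vale.Agent.Lib.P131.Signs

/-!
# Analysis on the circle: translation continuity and ergodicity of the dyadic rotations
-/

namespace Vale.Agent.P131

open MeasureTheory Filter Set
open scoped Topology Pointwise

/-- The integral modulus of continuity of an integrable function tends to zero along the dyadic
rotations. -/
theorem tendsto_translate {f : UnitAddCircle → ℝ} (hf : Integrable f) :
    Tendsto (fun k => ∫ σ, |f (σ + rot k) - f σ|) atTop (𝓝 0) := by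
  have hf1 : MemLp f 1 volume := memLp_one_iff_integrable.mpr hf
  let F : Lp ℝ 1 (volume : Measure UnitAddCircle) := hf1.toLp f
  let g : C(UnitAddCircle × UnitAddCircle, UnitAddCircle) := ⟨fun p => p.2 + p.1, by fun_prop⟩
  have hgk : ∀ k, MeasurePreserving (g.curry (rot k)) volume volume := fun k =>
    measurePreserving_add_right volume (rot k)
  have hg0 : MeasurePreserving (g.curry 0) volume volume :=
    measurePreserving_add_right volume 0
  have hlim : Tendsto (fun k => g.curry (rot k)) atTop (𝓝 (g.curry 0)) :=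
    (g.curry.continuous.tendsto 0).comp tendsto_rot
  have h1 := Filter.Tendsto.compMeasurePreservingLp (tendsto_const_nhds (x := F)) hlim hgk hg0
    ENNReal.one_ne_top
  rw [tendsto_iff_dist_tendsto_zero] at h1
  refine h1.congr (fun k => ?_)
  rw [L1.dist_eq_integral_dist]
  refine integral_congr_ae ?_
  have e1 := Lp.coeFn_compMeasurePreserving F (hgk k)
  have e2 := Lp.coeFn_compMeasurePreserving F hg0
  have e3 := (hgk k).quasiMeasurePreserving.ae hf1.coeFn_toLp
  have e4 := hg0.quasiMeasurePreserving.ae hf1.coeFn_toLp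
  filter_upwards [e1, e2, e3, e4] with σ e1 e2 e3 e4
  rw [e1, e2, Function.comp_apply, Function.comp_apply, e3, e4, Real.dist_eq]
  simp only [g, ContinuousMap.curry_apply, ContinuousMap.coe_mk, add_zero]

theorem ae_add_rot {p : UnitAddCircle → Prop} (h : ∀ᵐ σ, p σ) (t : UnitAddCircle) :
    ∀ᵐ σ, p (σ + t) :=
  (measurePreserving_add_right volume t).quasiMeasurePreserving.ae h

theorem aux1 {x y e : ℝ} (hx0 : 0 ≤ x) (hx1 : x ≤ 1) (h : x * (1 - y) ≤ e) :
    x * (1 - x) ≤ e + |x - y| := by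
  have h1 : x * (y - x) ≤ 1 * |y - x| :=
    (mul_le_mul_of_nonneg_left (le_abs_self _) hx0).trans
      (mul_le_mul_of_nonneg_right hx1 (abs_nonneg _))
  rw [one_mul, abs_sub_comm] at h1
  have h2 : x * (1 - x) = x * (1 - y) + x * (y - x) := by ring
  linarith

theorem aux2 {x y e : ℝ} (hx0 : 0 ≤ x) (hx1 : x ≤ 1) (h : y * (1 - x) ≤ e) :
    x * (1 - x) ≤ e + |y - x| := by
  have h1 : (x - y) * (1 - x) ≤ |x - y| * 1 :=
    (mul_le_mul_of_nonneg_right (le_abs_self _) (by linarith)).trans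
      (mul_le_mul_of_nonneg_left (by linarith) (abs_nonneg _))
  rw [mul_one, abs_sub_comm] at h1
  have h2 : x * (1 - x) = y * (1 - x) + (x - y) * (1 - x) := by ring
  linarith

theorem pointwise_bound (θ : UnitAddCircle → ℝ) (h0 : ∀ᵐ σ, 0 ≤ θ σ) (h1 : ∀ᵐ σ, θ σ ≤ 1)
    (k : ℕ) (e : ℝ) (hk : ∀ᵐ σ, rad k σ = -1 → θ (σ + rot k) * (1 - θ σ) ≤ e) :
    ∀ᵐ σ, θ σ * (1 - θ σ) ≤ e +
      (|θ (σ + rot k) - θ σ| + |θ (σ - rot k + rot k) - θ (σ - rot k)|) := by
  have hk' := ae_add_rot hk (-rot k)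
  filter_upwards [h0, h1, hk, hk'] with σ h0 h1 hk hk'
  rw [← sub_eq_add_neg] at hk'
  rw [sub_add_cancel] at hk' ⊢
  have a2 := abs_nonneg (θ (σ + rot k) - θ σ)
  have a3 := abs_nonneg (θ σ - θ (σ - rot k))
  rcases rad_eq k σ with h | h
  · have := aux1 h0 h1 (hk' (by rw [rad_sub_rot, h]))
    linarith
  · have := aux2 h0 h1 (hk h)
    linarith

theorem integral_bound (θ : UnitAddCircle → ℝ) (hint : Integrable θ)
    (hintp : Integrable (fun σ => θ σ * (1 - θ σ)))
    (t : UnitAddCircle) (e : ℝ)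
    (hpt : ∀ᵐ σ, θ σ * (1 - θ σ) ≤ e +
      (|θ (σ + t) - θ σ| + |θ (σ - t + t) - θ (σ - t)|)) :
    ∫ σ, θ σ * (1 - θ σ) ≤ e + ((∫ σ, |θ (σ + t) - θ σ|) +
      ∫ σ, |θ (σ + t) - θ σ|) := by
  let d : UnitAddCircle → ℝ := fun σ => |θ (σ + t) - θ σ|
  have hadd : Integrable (fun σ => θ (σ + t)) := hint.comp_add_right t
  have hdiff : Integrable d := (hadd.sub hint).abs
  have hdiff' : Integrable (fun σ => d (σ - t)) := hdiff.comp_sub_right t
  have hshift : ∫ σ, d (σ - t) = ∫ σ, d σ := integral_sub_right_eq_self d t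
  have hsum : Integrable (fun σ => d σ + d (σ - t)) := hdiff.add hdiff'
  have hsum' : Integrable (fun σ => e + (d σ + d (σ - t))) := (integrable_const e).add hsum
  have hle : ∫ σ, θ σ * (1 - θ σ) ≤ ∫ σ, (e + (d σ + d (σ - t))) :=
    integral_mono_ae hintp hsum' hpt
  rw [integral_add (integrable_const e) hsum, integral_add hdiff hdiff', hshift] at hle
  have hv : (volume : Measure UnitAddCircle).real univ = 1 := by
    rw [measureReal_def, AddCircle.measure_univ]; simp
  rw [integral_const, hv, one_smul] at hle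
  exact hle

theorem theta_zero_one (θ : UnitAddCircle → ℝ) (hm : Measurable θ) (h0 : ∀ᵐ σ, 0 ≤ θ σ)
    (h1 : ∀ᵐ σ, θ σ ≤ 1) (η : ℕ → ℝ) (hη : Tendsto η atTop (𝓝 0))
    (hk : ∀ k, ∀ᵐ σ, rad k σ = -1 → θ (σ + rot k) * (1 - θ σ) ≤ η k) :
    ∀ᵐ σ, θ σ = 0 ∨ θ σ = 1 := by
  have hint : Integrable θ := by
    refine Integrable.of_bound hm.aestronglyMeasurable 1 ?_
    filter_upwards [h0, h1] with σ h0 h1
    rw [Real.norm_eq_abs, abs_of_nonneg h0]
    exact h1
  have hintp : Integrable (fun σ => θ σ * (1 - θ σ)) := by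
    refine Integrable.of_bound (hm.mul (measurable_const.sub hm)).aestronglyMeasurable 1 ?_
    filter_upwards [h0, h1] with σ h0 h1
    rw [Real.norm_eq_abs, abs_of_nonneg (mul_nonneg h0 (by linarith))]
    exact mul_le_one₀ h1 (by linarith) (by linarith)
  have hnn : 0 ≤ᵐ[volume] (fun σ => θ σ * (1 - θ σ)) := by
    filter_upwards [h0, h1] with σ h0 h1
    exact mul_nonneg h0 (by linarith)
  have hlim : Tendsto (fun k => η k + ((∫ σ, |θ (σ + rot k) - θ σ|) +
      ∫ σ, |θ (σ + rot k) - θ σ|)) atTop (𝓝 (0 + (0 + 0))) :=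
    hη.add ((tendsto_translate hint).add (tendsto_translate hint))
  have hz : ∫ σ, θ σ * (1 - θ σ) ≤ 0 + (0 + 0) :=
    ge_of_tendsto' hlim (fun k => integral_bound θ hint hintp (rot k) (η k)
      (pointwise_bound θ h0 h1 k (η k) (hk k)))
  rw [add_zero, add_zero] at hz
  have hz' : ∫ σ, θ σ * (1 - θ σ) = 0 := le_antisymm hz (integral_nonneg_of_ae hnn)
  rw [integral_eq_zero_iff_of_nonneg_ae hnn hintp] at hz'
  filter_upwards [hz'] with σ h
  rcases mul_eq_zero.mp h with h | h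
  · exact Or.inl h
  · exact Or.inr (by linarith)

theorem ae_dichotomy (θ : UnitAddCircle → ℝ) (hm : Measurable θ)
    (h01 : ∀ᵐ σ, θ σ = 0 ∨ θ σ = 1)
    (hinv : ∀ k, ∀ᵐ σ, θ (σ + rot k) = 1 → θ σ = 1)
    (hinv' : ∀ k, ∀ᵐ σ, θ (σ - rot k) = 1 → θ σ = 1) :
    (∀ᵐ σ, θ σ = 0) ∨ (∀ᵐ σ, θ σ = 1) := by
  let E : Set UnitAddCircle := {σ | θ σ = 1}
  have hE : MeasurableSet E := hm (measurableSet_singleton 1)
  have hvadd : ∀ k, ((rot k +ᵥ E : Set UnitAddCircle)) =ᵐ[volume] E := by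
    intro k
    have h1 := ae_add_rot (hinv k) (-rot k)
    filter_upwards [h1, hinv' k] with σ h1 h2
    apply propext
    change σ ∈ (rot k +ᵥ E : Set UnitAddCircle) ↔ σ ∈ E
    rw [mem_vadd_set_iff_neg_vadd_mem, vadd_eq_add, neg_add_eq_sub]
    rw [← sub_eq_add_neg, sub_add_cancel] at h1
    exact ⟨h2, h1⟩
  have hord : Tendsto (addOrderOf ∘ rot) atTop atTop := by
    have : (addOrderOf ∘ rot) = fun k => 2 ^ (k + 1) := by
      funext k
      exact addOrderOf_rot k
    rw [this]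
    exact (tendsto_pow_atTop_atTop_of_one_lt one_lt_two).comp (tendsto_add_atTop_nat 1)
  rcases AddCircle.ae_empty_or_univ_of_forall_vadd_ae_eq_self hE.nullMeasurableSet hvadd hord
    with h | h
  · left
    have h' := ae_eq_empty.mp h
    have h'' : ∀ᵐ σ, σ ∉ E := measure_eq_zero_iff_ae_notMem.mp h'
    filter_upwards [h01, h''] with σ h1 h2
    rcases h1 with h1 | h1
    · exact h1
    · exact absurd h1 h2
  · right
    rw [ae_eq_univ] at h
    have h'' : ∀ᵐ σ, σ ∉ Eᶜ := measure_eq_zero_iff_ae_notMem.mp h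
    filter_upwards [h''] with σ h1
    simpa [E] using h1

end Vale.Agent.P131
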