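import Mathlib

/-!
# A quantitative lemma on products of polynomials (Mahler measure), in bilateral form

If two finitely supported bilateral sequences have a correlation sequence which is uniformly
small, then the product of their central coefficients is small.
-/

open Polynomial

namespace Vale.Agent.P131

/-- Coefficients of two polynomials are controlled by the coefficients of the product. -/
theorem coeff_mul_bound (p q : ℂ[X]) (d i j : ℕ) (hp : p.natDegree ≤ d) (hq : q.natDegree ≤ d)
    (δ : ℝ) (hδ : ∀ n, ‖(p * q).coeff n‖ ≤ δ) :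
    ‖p.coeff i‖ * ‖q.coeff j‖ ≤ 4 ^ d * ((2 * d + 1) * δ) := by
  have hδ0 : 0 ≤ δ := le_trans (norm_nonneg _) (hδ 0)
  have h1 : ‖p.coeff i‖ ≤ 2 ^ d * p.mahlerMeasure := by
    refine (norm_coeff_le_choose_mul_mahlerMeasure i p).trans ?_
    refine mul_le_mul_of_nonneg_right ?_ (mahlerMeasure_nonneg p)
    have h := (Nat.choose_le_two_pow p.natDegree i).trans (Nat.pow_le_pow_right two_pos hp)
    exact_mod_cast h
  have h2 : ‖q.coeff j‖ ≤ 2 ^ d * q.mahlerMeasure := by
    refine (norm_coeff_le_choose_mul_mahlerMeasure j q).trans ?_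
    refine mul_le_mul_of_nonneg_right ?_ (mahlerMeasure_nonneg q)
    have h := (Nat.choose_le_two_pow q.natDegree j).trans (Nat.pow_le_pow_right two_pos hq)
    exact_mod_cast h
  have h3 : (p * q).mahlerMeasure ≤ (2 * d + 1) * δ := by
    refine (mahlerMeasure_le_sum_norm_coeff (p * q)).trans ?_
    rw [Polynomial.sum_def]
    refine (Finset.sum_le_card_nsmul _ _ δ (fun n _ => hδ n)).trans ?_
    rw [nsmul_eq_mul]
    refine mul_le_mul_of_nonneg_right ?_ hδ0
    have h := (card_supp_le_succ_natDegree (p * q))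
    have h' := (natDegree_mul_le (p := p) (q := q))
    have h'' : (p * q).support.card ≤ 2 * d + 1 := by omega
    exact_mod_cast h''
  calc ‖p.coeff i‖ * ‖q.coeff j‖
      ≤ (2 ^ d * p.mahlerMeasure) * (2 ^ d * q.mahlerMeasure) :=
        mul_le_mul h1 h2 (norm_nonneg _) (mul_nonneg (by positivity) (mahlerMeasure_nonneg p))
    _ = 4 ^ d * (p * q).mahlerMeasure := by
        rw [mahlerMeasure_mul]
        have : (4 : ℝ) ^ d = 2 ^ d * 2 ^ d := by rw [← mul_pow]; norm_num
        rw [this]; ring
    _ ≤ 4 ^ d * ((2 * d + 1) * δ) := mul_le_mul_of_nonneg_left h3 (by positivity)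

/-- Bilateral form: `a` and `b` vanish outside `[-N, N]` and all the correlations
`∑ a (n - j) * b n` are bounded by `δ`. -/
theorem bilateral_bound (N : ℕ) (a b : ℤ → ℂ) (ha : ∀ m : ℤ, (N : ℤ) < |m| → a m = 0)
    (hb : ∀ m : ℤ, (N : ℤ) < |m| → b m = 0) (δ : ℝ)
    (hδ : ∀ j : ℤ, ‖∑ n ∈ Finset.Icc (-(N : ℤ)) N, a (n - j) * b n‖ ≤ δ) :
    ‖a 0‖ * ‖b 0‖ ≤ 16 ^ N * ((4 * N + 1) * δ) := by
  classical
  let p : ℂ[X] := ∑ i ∈ Finset.range (2 * N + 1), monomial i (a ((i : ℤ) - N))
  let q : ℂ[X] := ∑ i ∈ Finset.range (2 * N + 1), monomial i (b ((N : ℤ) - i))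
  have hpc : ∀ k : ℕ, p.coeff k = a ((k : ℤ) - N) := by
    intro k
    simp only [p, finsetSum_coeff, coeff_monomial]
    rw [Finset.sum_ite_eq' (Finset.range (2 * N + 1)) k]
    split_ifs with h
    · rfl
    · rw [ha]
      rw [Finset.mem_range] at h
      rw [lt_abs]; left; omega
  have hqc : ∀ k : ℕ, q.coeff k = b ((N : ℤ) - k) := by
    intro k
    simp only [q, finsetSum_coeff, coeff_monomial]
    rw [Finset.sum_ite_eq' (Finset.range (2 * N + 1)) k]
    split_ifs with h
    · rfl
    · rw [hb]
      rw [Finset.mem_range] at h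
      rw [lt_abs]; right; omega
  have hpd : p.natDegree ≤ 2 * N := by
    rw [natDegree_le_iff_coeff_eq_zero]
    intro k hk
    rw [hpc, ha]
    rw [lt_abs]; left; omega
  have hqd : q.natDegree ≤ 2 * N := by
    rw [natDegree_le_iff_coeff_eq_zero]
    intro k hk
    rw [hqc, hb]
    rw [lt_abs]; right; omega
  have hcoef : ∀ k : ℕ, ‖(p * q).coeff k‖ ≤ δ := by
    intro k
    have hk : (p * q).coeff k
        = ∑ n ∈ Finset.Icc (-(N : ℤ)) N, a (n - (2 * (N : ℤ) - k)) * b n := by
      rw [coeff_mul]
      rw [← Finset.sum_filter_of_ne (p := fun x : ℕ × ℕ => x.2 ≤ 2 * N)]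
      · refine Finset.sum_of_injOn (fun x : ℕ × ℕ => (N : ℤ) - x.2) ?_ ?_ ?_ ?_
        · intro x hx y hy hxy
          simp only [Finset.coe_filter, Finset.HasAntidiagonal.mem_antidiagonal, Set.mem_ofPred_eq] at hx hy
          simp only at hxy
          ext <;> omega
        · intro x hx
          simp only [Finset.coe_filter, Finset.HasAntidiagonal.mem_antidiagonal, Set.mem_ofPred_eq] at hx
          simp only [Finset.coe_Icc, Set.mem_Icc]
          omega
        · intro n hn hn'
          rw [Finset.mem_Icc] at hn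
          by_cases hkn : (N : ℤ) - n ≤ k
          · exfalso
            apply hn'
            refine ⟨(k - ((N : ℤ) - n).toNat, ((N : ℤ) - n).toNat), ?_, ?_⟩
            · simp only [Finset.coe_filter, Finset.HasAntidiagonal.mem_antidiagonal, Set.mem_ofPred_eq]
              omega
            · simp only
              omega
          · rw [ha, zero_mul]
            rw [lt_abs]; right; omega
        · intro x hx
          rw [Finset.mem_filter, Finset.HasAntidiagonal.mem_antidiagonal] at hx
          rw [hpc, hqc]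
          congr 2
          omega
      · intro x hx hne
        by_contra hcon
        apply hne
        rw [hqc, hb, mul_zero]
        rw [lt_abs]; right; omega
    rw [hk]
    exact hδ _
  have h := coeff_mul_bound p q (2 * N) N N hpd hqd δ hcoef
  rw [hpc, hqc, sub_self] at h
  have h16 : (4 : ℝ) ^ (2 * N) = 16 ^ N := by rw [pow_mul]; norm_num
  rw [h16] at h
  refine h.trans_eq ?_
  push_cast
  ring

end Vale.Agent.P131
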