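import Mathlib
import Vale.Agent.Lib.P131.Mahler

/-!
# The deterministic key estimate

Two exponents `D`, `D'` on the integers, the first one decreasing and the second one increasing
on a long interval; if a pair of sequences in the unit ball of `ℓ²(ℤ)` has vanishing weighted
correlations, then the product of the central coefficients is tiny.
-/

namespace Vale.Agent.P131

open Finset

theorem zpow_le_of_le {m n : ℤ} (h : m ≤ n) : (1024 : ℝ) ^ m ≤ (1024 : ℝ) ^ n :=
  zpow_le_zpow_right₀ (by norm_num) h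

theorem norm_zpow_1024 (m : ℤ) : ‖(1024 : ℂ) ^ m‖ = (1024 : ℝ) ^ m := by
  rw [norm_zpow]; norm_num

theorem key_bound (a : ℕ) (D D' : ℤ → ℤ) (hD0 : D 0 = 0) (hD'0 : D' 0 = 0)
    (h1 : ∀ n : ℤ, |n| ≤ 8 * a → D n ≤ 2 * a - |n|)
    (h2 : ∀ n : ℤ, |n| ≤ 8 * a → |n| - 2 * a ≤ D' n)
    (h3 : ∀ n m : ℤ, (8 * (a : ℤ) < |n| ∨ 8 * (a : ℤ) < |m|) →
      D n - D' m ≤ -(12 * a) + |n - m|)
    (α β : ℤ → ℂ) (hα : Summable fun n => ‖α n‖ ^ 2) (hα1 : ∑' n, ‖α n‖ ^ 2 ≤ 1)
    (hβ : Summable fun n => ‖β n‖ ^ 2) (hβ1 : ∑' n, ‖β n‖ ^ 2 ≤ 1)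
    (hq : ∀ j : ℤ, HasSum (fun n => (1024 : ℂ) ^ (D n - D' (n - j)) * α (n - j) * β n) 0) :
    ‖α 0‖ * ‖β 0‖ ≤ (32 * a + 1) * (1 / 2) ^ (8 * a) := by
  classical
  have hcorr : ∀ j : ℤ,
      ‖∑ n ∈ (Icc (-((8 * a : ℕ) : ℤ)) ((8 * a : ℕ) : ℤ)).filter
        (fun n => |n - j| ≤ 8 * (a : ℤ)),
        (1024 : ℂ) ^ (D n - D' (n - j)) * α (n - j) * β n‖ ≤ (1024 : ℝ) ^ (-(4 * (a : ℤ))) := by
    intro j
    set S := (Icc (-((8 * a : ℕ) : ℤ)) ((8 * a : ℕ) : ℤ)).filter
        (fun n => |n - j| ≤ 8 * (a : ℤ)) with hS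
    set F : ℤ → ℂ := fun n => (1024 : ℂ) ^ (D n - D' (n - j)) * α (n - j) * β n with hF
    have hmem : ∀ n, n ∈ S ↔ (|n| ≤ 8 * (a : ℤ) ∧ |n - j| ≤ 8 * (a : ℤ)) := by
      intro n
      rw [hS, mem_filter, mem_Icc, abs_le, abs_le]
      push_cast
      tauto
    let G : ℤ → ℝ := fun n => (‖α (n - j)‖ ^ 2 + ‖β n‖ ^ 2) / 2
    have hαj : Summable fun n : ℤ => ‖α (n - j)‖ ^ 2 :=
      (Equiv.subRight j).summable_iff.mpr hα
    have hαj1 : ∑' n : ℤ, ‖α (n - j)‖ ^ 2 ≤ 1 := by
      have := (Equiv.subRight j).tsum_eq (fun n : ℤ => ‖α n‖ ^ 2)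
      simp only [Equiv.subRight_apply] at this
      rw [this]; exact hα1
    have hG : Summable G := (hαj.add hβ).div_const 2
    have hG1 : ∑' n, G n ≤ 1 := by
      simp only [G]
      rw [tsum_div_const, hαj.tsum_add hβ]
      linarith
    have hG0 : ∀ n, 0 ≤ G n := fun n => by positivity
    have hFG : ∀ n (c : ℤ), D n - D' (n - j) ≤ c → ‖F n‖ ≤ (1024 : ℝ) ^ c * G n := by
      intro n c hc
      simp only [F, G]
      rw [norm_mul, norm_mul, norm_zpow_1024, mul_assoc]
      refine mul_le_mul (zpow_le_of_le hc) ?_ (by positivity) (by positivity)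
      nlinarith [sq_nonneg (‖α (n - j)‖ - ‖β n‖)]
    have hnear : HasSum (fun n => if n ∈ S then F n else 0) (∑ n ∈ S, F n) := by
      have : HasSum (fun n => if n ∈ S then F n else 0)
          (∑ n ∈ S, if n ∈ S then F n else 0) :=
        hasSum_sum_of_ne_finset_zero (fun b hb => if_neg hb)
      rwa [sum_congr rfl (fun n hn => if_pos hn)] at this
    have hfar : HasSum (fun n => F n - if n ∈ S then F n else 0) (0 - ∑ n ∈ S, F n) :=
      (hq j).sub hnear
    rcases le_total (8 * (a : ℤ)) |j| with hj | hj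
    · have hb := hnear.norm_le_of_bounded
        (hG.hasSum.mul_left ((1024 : ℝ) ^ (4 * (a : ℤ) - |j|))) (fun n => by
          by_cases hn : n ∈ S
          · rw [if_pos hn]
            apply hFG
            rw [hmem] at hn
            have e1 := h1 n hn.1
            have e2 := h2 (n - j) hn.2
            have e3 : |j| ≤ |n| + |n - j| := by
              have := abs_sub n (n - j)
              rwa [sub_sub_cancel] at this
            linarith
          · rw [if_neg hn, norm_zero]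
            exact mul_nonneg (by positivity) (hG0 n))
      refine hb.trans ?_
      calc (1024 : ℝ) ^ (4 * (a : ℤ) - |j|) * ∑' n, G n
          ≤ (1024 : ℝ) ^ (4 * (a : ℤ) - |j|) * 1 :=
            mul_le_mul_of_nonneg_left hG1 (by positivity)
        _ ≤ _ := by rw [mul_one]; exact zpow_le_of_le (by linarith)
    · have hb := hfar.norm_le_of_bounded
        (hG.hasSum.mul_left ((1024 : ℝ) ^ (-(12 * (a : ℤ)) + |j|))) (fun n => by
          by_cases hn : n ∈ S
          · rw [if_pos hn, sub_self, norm_zero]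
            exact mul_nonneg (by positivity) (hG0 n)
          · rw [if_neg hn, sub_zero]
            apply hFG
            rw [hmem, not_and_or, not_le, not_le] at hn
            have e1 := h3 n (n - j) hn
            rwa [sub_sub_cancel] at e1)
      rw [zero_sub, norm_neg] at hb
      refine hb.trans ?_
      calc (1024 : ℝ) ^ (-(12 * (a : ℤ)) + |j|) * ∑' n, G n
          ≤ (1024 : ℝ) ^ (-(12 * (a : ℤ)) + |j|) * 1 :=
            mul_le_mul_of_nonneg_left hG1 (by positivity)
        _ ≤ _ := by rw [mul_one]; exact zpow_le_of_le (by linarith)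
  have hmain := bilateral_bound (8 * a)
    (fun m => if |m| ≤ 8 * (a : ℤ) then (1024 : ℂ) ^ (-D' m) * α m else 0)
    (fun m => if |m| ≤ 8 * (a : ℤ) then (1024 : ℂ) ^ (D m) * β m else 0)
    (fun m hm => if_neg (by push_cast at hm; linarith))
    (fun m hm => if_neg (by push_cast at hm; linarith))
    ((1024 : ℝ) ^ (-(4 * (a : ℤ)))) (by
      intro j
      refine le_trans (le_of_eq ?_) (hcorr j)
      congr 1
      rw [sum_filter]
      refine sum_congr rfl (fun n hn => ?_)
      rw [mem_Icc] at hn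
      have hn' : |n| ≤ 8 * (a : ℤ) := by
        rw [abs_le]; push_cast at hn; exact hn
      simp only [if_pos hn']
      by_cases h : |n - j| ≤ 8 * (a : ℤ)
      · simp only [if_pos h]
        rw [sub_eq_add_neg (D n), zpow_add₀ (by norm_num)]
        ring
      · simp only [if_neg h, zero_mul])
  have h0 : |(0 : ℤ)| ≤ 8 * (a : ℤ) := by rw [abs_zero]; positivity
  simp only [if_pos h0, hD0, hD'0, neg_zero, zpow_zero, one_mul] at hmain
  refine hmain.trans_eq ?_
  have e1 : (1024 : ℝ) ^ (-(4 * (a : ℤ))) = (1 / 1024) ^ (4 * a) := by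
    rw [zpow_neg, one_div, inv_pow]
    congr 1
  rw [e1, pow_mul, pow_mul, pow_mul]
  have e2 : (16 : ℝ) ^ 8 * (1 / 1024) ^ 4 = (1 / 2) ^ 8 := by norm_num
  rw [← e2, mul_pow]
  push_cast
  ring

end Vale.Agent.P131
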