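import Mathlib
import Vale.Agent.Lib.P131.Signs

/-!
# Weighted composition operators on `L²(circle × ℤ)`
-/

namespace Vale.Agent.P131

open MeasureTheory Filter Set
open scoped ENNReal

/-! ### General weighted composition operators -/

section General

variable {X : Type*} [MeasurableSpace X] {m : Measure X}

/-- Multiplication by a bounded measurable function followed by a measure preserving
composition is a bounded operator on `L²`. -/
theorem exists_wcomp (τ : X → X) (hτ : MeasurePreserving τ m m) (g : X → ℂ) (hg : Measurable g)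
    (C : ℝ) (hC : ∀ x, ‖g x‖ ≤ C) :
    ∃ A : Lp ℂ 2 m →L[ℂ] Lp ℂ 2 m, ∀ ξ : Lp ℂ 2 m, A ξ =ᵐ[m] fun x => g x * ξ (τ x) := by
  have hmem : ∀ ξ : Lp ℂ 2 m, MemLp (fun x => g x * ξ x) 2 m := fun ξ =>
    (Lp.memLp ξ).of_le_mul (c := C)
      (hg.aestronglyMeasurable.mul (Lp.aestronglyMeasurable ξ))
      (ae_of_all _ fun x => by
        rw [norm_mul]
        exact mul_le_mul_of_nonneg_right (hC x) (norm_nonneg _))
  let M : Lp ℂ 2 m →ₗ[ℂ] Lp ℂ 2 m :=
    { toFun := fun ξ => (hmem ξ).toLp _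
      map_add' := fun ξ ζ => by
        ext1
        filter_upwards [(hmem (ξ + ζ)).coeFn_toLp, (hmem ξ).coeFn_toLp, (hmem ζ).coeFn_toLp,
          Lp.coeFn_add ξ ζ, Lp.coeFn_add ((hmem ξ).toLp _) ((hmem ζ).toLp _)]
          with x h1 h2 h3 h4 h5
        rw [h1, h5, Pi.add_apply, h2, h3, h4, Pi.add_apply, mul_add]
      map_smul' := fun c ξ => by
        ext1
        filter_upwards [(hmem (c • ξ)).coeFn_toLp, (hmem ξ).coeFn_toLp,
          Lp.coeFn_smul c ξ, Lp.coeFn_smul c ((hmem ξ).toLp _)] with x h1 h2 h3 h4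
        rw [h1, RingHom.id_apply, h4, Pi.smul_apply, h2, h3, Pi.smul_apply, smul_eq_mul,
          smul_eq_mul]
        ring }
  have hM : ∀ ξ, ‖M ξ‖ ≤ C * ‖ξ‖ := fun ξ => by
    refine Lp.norm_le_mul_norm_of_ae_le_mul ?_
    filter_upwards [(hmem ξ).coeFn_toLp] with x hx
    change ‖((hmem ξ).toLp _ : Lp ℂ 2 m) x‖ ≤ _
    rw [hx, norm_mul]
    exact mul_le_mul_of_nonneg_right (hC x) (norm_nonneg _)
  refine ⟨(M.mkContinuous C hM).comp
    (Lp.compMeasurePreservingₗᵢ ℂ τ hτ).toContinuousLinearMap, fun ξ => ?_⟩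
  have h1 := (hmem (Lp.compMeasurePreserving τ hτ ξ)).coeFn_toLp
  have h2 := Lp.coeFn_compMeasurePreserving ξ hτ
  change ((hmem (Lp.compMeasurePreserving τ hτ ξ)).toLp _ : Lp ℂ 2 m) =ᵐ[m] _
  filter_upwards [h1, h2] with x h1 h2
  rw [h1, h2, Function.comp_apply]

end General

/-! ### The space `circle × ℤ` -/

/-- The product of the normalised Haar measure of the circle and the counting measure of `ℤ`. -/
noncomputable abbrev mm : Measure (UnitAddCircle × ℤ) :=
  (volume : Measure UnitAddCircle).prod Measure.count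

/-- The Hilbert space `L²(circle × ℤ)`. -/
abbrev HH : Type := Lp ℂ 2 mm

theorem measurePreserving_count_sub (j : ℤ) :
    MeasurePreserving (fun n : ℤ => n - j) Measure.count Measure.count := by
  refine ⟨by fun_prop, ?_⟩
  ext s hs
  rw [Measure.map_apply (by fun_prop) hs, Measure.count_apply hs,
    Measure.count_apply (MeasurableSet.of_discrete)]
  congr 1
  exact encard_preimage_of_injective_subset_range (sub_left_injective)
    (fun x _ => ⟨x + j, by simp⟩)

/-- The shift `(σ, n) ↦ (σ + t, n - j)`. -/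
def shf (j : ℤ) (t : UnitAddCircle) (x : UnitAddCircle × ℤ) : UnitAddCircle × ℤ :=
  (x.1 + t, x.2 - j)

theorem measurePreserving_shf (j : ℤ) (t : UnitAddCircle) :
    MeasurePreserving (shf j t) mm mm :=
  (measurePreserving_add_right volume t).prod (measurePreserving_count_sub j)

/-- The kernel `1024 ^ (D σ n - D (σ + t) (n - j))`. -/
noncomputable def ker (j : ℤ) (t : UnitAddCircle) (x : UnitAddCircle × ℤ) : ℂ :=
  (1024 : ℂ) ^ (expo x.1 x.2 - expo (shf j t x).1 (shf j t x).2)

theorem ker_mk (j : ℤ) (t σ : UnitAddCircle) (n : ℤ) :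
    ker j t (σ, n) = (1024 : ℂ) ^ (expo σ n - expo (σ + t) (n - j)) := rfl

theorem measurable_expo_prod : Measurable (fun x : UnitAddCircle × ℤ => expo x.1 x.2) :=
  measurable_from_prod_countable_left (fun n => measurable_expo n)

theorem measurable_shf (j : ℤ) (t : UnitAddCircle) : Measurable (shf j t) :=
  (measurePreserving_shf j t).measurable

theorem measurable_ker (j : ℤ) (t : UnitAddCircle) : Measurable (ker j t) := by
  have h0 : Measurable (fun x : UnitAddCircle × ℤ => expo (shf j t x).1 (shf j t x).2) :=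
    measurable_expo_prod.comp (measurable_shf j t)
  have h1 : Measurable (fun x : UnitAddCircle × ℤ =>
      expo x.1 x.2 - expo (shf j t x).1 (shf j t x).2) := measurable_expo_prod.sub h0
  have h2 : Measurable (fun z : ℤ => (1024 : ℂ) ^ z) := Measurable.of_discrete
  exact h2.comp h1

/-- A rotation is admissible when it changes the exponents by a bounded amount. -/
def Adm (t : UnitAddCircle) : Prop := ∃ C : ℤ, ∀ σ n, |expo σ n - expo (σ + t) n| ≤ C

theorem adm_zero : Adm 0 := ⟨0, fun σ n => by simp⟩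

theorem adm_rot (k : ℕ) : Adm (rot k) := ⟨2 * 8 ^ (k + 1), fun σ n => expo_rot k σ n⟩

theorem adm_neg_rot (k : ℕ) : Adm (-rot k) := ⟨2 * 8 ^ (k + 1), fun σ n => by
  have := expo_rot k (σ + -rot k) n
  rw [neg_add_cancel_right] at this
  rwa [abs_sub_comm] at this⟩

theorem ker_bound (j : ℤ) {t : UnitAddCircle} (ht : Adm t) :
    ∃ C : ℝ, ∀ x, ‖ker j t x‖ ≤ C := by
  obtain ⟨C, hC⟩ := ht
  refine ⟨(1024 : ℝ) ^ (|j| + C), fun x => ?_⟩
  unfold ker shf
  rw [norm_zpow, Complex.norm_ofNat]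
  refine zpow_le_zpow_right₀ (by norm_num) ?_
  have h1 := le_abs_self (expo x.1 x.2 - expo x.1 (x.2 - j))
  have h2 := expo_lip x.1 x.2 (x.2 - j)
  have h3 := (le_abs_self _).trans (hC x.1 (x.2 - j))
  rw [sub_sub_cancel] at h2
  linarith

theorem ker_cocycle (j : ℤ) (t : UnitAddCircle) (x : UnitAddCircle × ℤ) :
    ker j t x * ker 1 0 (shf j t x) = ker 1 0 x * ker j t (shf 1 0 x) := by
  unfold ker shf
  rw [← zpow_add₀ (by norm_num), ← zpow_add₀ (by norm_num)]
  congr 1
  simp only [add_zero]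
  rw [show x.2 - j - 1 = x.2 - 1 - j by ring]
  ring

/-- `A` is the operator `ξ ↦ 1_S(σ) · ker(σ, n) · ξ(σ + t, n - j)`. -/
def IsW (j : ℤ) (t : UnitAddCircle) (S : Set UnitAddCircle) (A : HH →L[ℂ] HH) : Prop :=
  ∀ ξ : HH, A ξ =ᵐ[mm] fun x => (S ×ˢ (univ : Set ℤ)).indicator 1 x * ker j t x * ξ (shf j t x)

theorem exists_isW (j : ℤ) {t : UnitAddCircle} (ht : Adm t) {S : Set UnitAddCircle}
    (hS : MeasurableSet S) : ∃ A : HH →L[ℂ] HH, IsW j t S A := by
  obtain ⟨C, hC⟩ := ker_bound j ht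
  refine exists_wcomp (shf j t) (measurePreserving_shf j t)
    (fun x => (S ×ˢ (univ : Set ℤ)).indicator 1 x * ker j t x)
    ((measurable_one.indicator (hS.prod MeasurableSet.univ)).mul (measurable_ker j t)) C
    (fun x => ?_)
  rw [norm_mul]
  refine le_trans ?_ (hC x)
  refine mul_le_of_le_one_left (norm_nonneg _) ?_
  by_cases hx : x ∈ S ×ˢ (univ : Set ℤ)
  · rw [indicator_of_mem hx]; simp
  · rw [indicator_of_notMem hx]; simp

theorem isW_comm {T A : HH →L[ℂ] HH} (hT : IsW 1 0 univ T) {j : ℤ} {t : UnitAddCircle}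
    {S : Set UnitAddCircle} (hA : IsW j t S A) : A * T = T * A := by
  ext1 ξ
  ext1
  rw [mul_apply_eq_comp, mul_apply_eq_comp]
  have h1 := (measurePreserving_shf j t).quasiMeasurePreserving.ae (hT ξ)
  have h2 := (measurePreserving_shf 1 0).quasiMeasurePreserving.ae (hA ξ)
  filter_upwards [hA (T ξ), hT (A ξ), h1, h2] with x e1 e2 e3 e4
  rw [e1, e2, e3, e4]
  have hc := ker_cocycle j t x
  have hs : shf 1 0 (shf j t x) = shf j t (shf 1 0 x) := by
    unfold shf
    ext
    · simp
    · simp only; ring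
  have hi : (S ×ˢ (univ : Set ℤ)).indicator (1 : UnitAddCircle × ℤ → ℂ) (shf 1 0 x)
      = (S ×ˢ (univ : Set ℤ)).indicator 1 x := by
    have : shf 1 0 x ∈ S ×ˢ (univ : Set ℤ) ↔ x ∈ S ×ˢ (univ : Set ℤ) := by
      simp [shf, mem_prod]
    by_cases hx : x ∈ S ×ˢ (univ : Set ℤ)
    · rw [indicator_of_mem hx, indicator_of_mem (this.mpr hx), Pi.one_apply, Pi.one_apply]
    · rw [indicator_of_notMem hx, indicator_of_notMem (fun h => hx (this.mp h))]
  rw [hs, hi]
  simp only [univ_prod_univ, indicator_univ, Pi.one_apply, one_mul]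
  linear_combination (S ×ˢ (univ : Set ℤ)).indicator (1 : UnitAddCircle × ℤ → ℂ) x *
    ξ (shf j t (shf 1 0 x)) * hc

/-! ### Fibrewise orthogonality -/

theorem hasSum_of_integrable_count {f : ℤ → ℂ} (hf : Integrable f Measure.count) :
    HasSum f (∫ n, f n ∂Measure.count) := by
  rw [integral_countable hf]
  simp only [count_real_singleton, one_smul]
  exact ((integrable_count_iff.mp hf).of_norm).hasSum

/-- If all the operators `IsW j t S` map `f` to a vector orthogonal to `g`, then the sequences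
are orthogonal on almost every fibre. -/
theorem fibre_orth {j : ℤ} {t : UnitAddCircle} (ht : Adm t) (f g : HH)
    (h : ∀ (S : Set UnitAddCircle) (A : HH →L[ℂ] HH), IsW j t S A → inner ℂ g (A f) = 0) :
    ∀ᵐ σ : UnitAddCircle, HasSum (fun n : ℤ =>
      ker j t (σ, n) * f (σ + t, n - j) * (starRingEnd ℂ) (g (σ, n))) 0 := by
  obtain ⟨B, hB⟩ := exists_isW j ht MeasurableSet.univ
  have hint : Integrable (fun x : UnitAddCircle × ℤ => inner ℂ (g x) (B f x)) mm :=
    L2.integrable_inner (𝕜 := ℂ) g (B f)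
  have hzero : (fun σ : UnitAddCircle => ∫ n : ℤ, inner ℂ (g (σ, n)) (B f (σ, n)) ∂Measure.count)
      =ᵐ[volume] 0 := by
    refine hint.integral_prod_left.ae_eq_zero_of_forall_setIntegral_eq_zero
      (fun S hS _ => ?_)
    obtain ⟨A, hA⟩ := exists_isW j ht hS
    have h1 := h S A hA
    rw [L2.inner_def] at h1
    have h2 : ∫ x in S ×ˢ (univ : Set ℤ), inner ℂ (g x) (B f x) ∂mm
        = ∫ σ in S, ∫ n in (univ : Set ℤ), inner ℂ (g (σ, n)) (B f (σ, n)) ∂Measure.count :=
      setIntegral_prod _ hint.integrableOn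
    simp only [Measure.restrict_univ] at h2
    rw [← h2, ← h1, ← integral_indicator (hS.prod MeasurableSet.univ)]
    refine integral_congr_ae ?_
    filter_upwards [hA f, hB f] with x e1 e2
    rw [e1]
    by_cases hx : x ∈ S ×ˢ (univ : Set ℤ)
    · rw [indicator_of_mem hx, e2, indicator_of_mem hx]
      simp
    · rw [indicator_of_notMem hx, indicator_of_notMem hx]
      simp
  have hB' := Measure.ae_ae_of_ae_prod (hB f)
  filter_upwards [hint.prod_right_ae, hzero, hB'] with σ h1 h2 h3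
  rw [Measure.ae_count_iff] at h3
  have h4 := hasSum_of_integrable_count h1
  rw [h2] at h4
  refine h4.congr_fun ?_
  intro n
  rw [h3 n]
  simp only [univ_prod_univ, indicator_univ, Pi.one_apply, one_mul, shf, RCLike.inner_apply]

theorem fibre_summable (f : HH) :
    ∀ᵐ σ : UnitAddCircle, Summable (fun n : ℤ => ‖f (σ, n)‖ ^ 2) := by
  have hint : Integrable (fun x : UnitAddCircle × ℤ => inner ℂ (f x) (f x)) mm :=
    L2.integrable_inner (𝕜 := ℂ) f f
  filter_upwards [hint.prod_right_ae] with σ h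
  have := integrable_count_iff.mp h
  refine this.congr (fun n => ?_)
  rw [inner_self_eq_norm_sq_to_K]
  simp

end Vale.Agent.P131
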