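import Mathlib
import Vale.Agent.Lib.P131.Key
import Vale.Agent.Lib.P131.Ops
import Vale.Agent.Lib.P131.Circle

/-!
# The random bilateral shift has no nontrivial hyperinvariant subspace
-/

namespace Vale.Agent.P131

open MeasureTheory Filter Set
open scoped Topology ComplexConjugate

/-! ### Sequences on one fibre -/

theorem eq_zero_of_hasSum_single {f : ℤ → ℂ} (n : ℤ) (h : HasSum f 0)
    (hf : ∀ m, m ≠ n → f m = 0) : f n = 0 :=
  (hasSum_single n hf).unique h

/-- If `a + b = δ₀` and `a ⟂ b` in `ℓ²(ℤ)` then `a 0 = ‖a‖²` and `b 0 = 1 - a 0 = ‖b‖²`. -/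
theorem fibre_algebra (a b : ℤ → ℂ) (hab : ∀ n, a n + b n = if n = 0 then 1 else 0)
    (ha : Summable fun n => ‖a n‖ ^ 2) (hb : Summable fun n => ‖b n‖ ^ 2)
    (h : HasSum (fun n => a n * conj (b n)) 0) :
    0 ≤ (a 0).re ∧ (a 0).re ≤ 1 ∧ a 0 = ((a 0).re : ℂ) ∧ b 0 = ((1 - (a 0).re : ℝ) : ℂ) ∧
      ∑' n, ‖a n‖ ^ 2 = (a 0).re ∧ ∑' n, ‖b n‖ ^ 2 = 1 - (a 0).re := by
  have hδ : ∀ c : ℤ → ℂ, HasSum (fun n => if n = 0 then c n else 0) (c 0) := fun c => by
    have := hasSum_single (f := fun n => if n = 0 then c n else 0) (0 : ℤ)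
      (fun n hn => if_neg hn)
    simpa using this
  have h1 : HasSum (fun n => ((‖a n‖ ^ 2 : ℝ) : ℂ)) (a 0) := by
    have := (hδ a).sub h
    rw [sub_zero] at this
    refine this.congr_fun (fun n => ?_)
    have e : ((‖a n‖ ^ 2 : ℝ) : ℂ) = a n * conj (a n) := by
      rw [Complex.mul_conj, Complex.normSq_eq_norm_sq]
    rw [e]
    have hn := hab n
    split_ifs at hn ⊢ with h0
    · have : a n = 1 - b n := by rw [← hn]; ring
      rw [this]
      simp only [map_sub, map_one]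
      ring
    · have : b n = - a n := by rw [eq_neg_iff_add_eq_zero, add_comm]; exact hn
      rw [this, map_neg]
      ring
  have h2 : HasSum (fun n => ((‖b n‖ ^ 2 : ℝ) : ℂ)) (conj (b 0)) := by
    have := (hδ (fun n => conj (b n))).sub h
    rw [sub_zero] at this
    refine this.congr_fun (fun n => ?_)
    have e : ((‖b n‖ ^ 2 : ℝ) : ℂ) = b n * conj (b n) := by
      rw [Complex.mul_conj, Complex.normSq_eq_norm_sq]
    rw [e]
    have hn := hab n
    split_ifs at hn ⊢ with h0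
    · have : b n = 1 - a n := by rw [← hn]; ring
      rw [this]
      simp only [map_sub, map_one]
      ring
    · have : b n = - a n := by rw [eq_neg_iff_add_eq_zero, add_comm]; exact hn
      rw [this, map_neg]
      ring
  have h3 : a 0 = ((∑' n, ‖a n‖ ^ 2 : ℝ) : ℂ) :=
    h1.unique (Complex.hasSum_ofReal.mpr ha.hasSum)
  have h4 : conj (b 0) = ((∑' n, ‖b n‖ ^ 2 : ℝ) : ℂ) :=
    h2.unique (Complex.hasSum_ofReal.mpr hb.hasSum)
  have h5 : b 0 = ((∑' n, ‖b n‖ ^ 2 : ℝ) : ℂ) := by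
    have := congrArg conj h4
    rwa [Complex.conj_conj, Complex.conj_ofReal] at this
  have h6 : (∑' n, ‖a n‖ ^ 2) + (∑' n, ‖b n‖ ^ 2) = 1 := by
    have := hab 0
    rw [if_pos rfl, h3, h5] at this
    exact_mod_cast this
  have h7 : 0 ≤ ∑' n, ‖a n‖ ^ 2 := tsum_nonneg (fun n => by positivity)
  have h8 : 0 ≤ ∑' n, ‖b n‖ ^ 2 := tsum_nonneg (fun n => by positivity)
  have h9 : (a 0).re = ∑' n, ‖a n‖ ^ 2 := by rw [h3, Complex.ofReal_re]
  rw [h9]
  refine ⟨h7, by linarith, h3, ?_, rfl, by linarith⟩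
  rw [h5]
  congr 1
  linarith

theorem eq_zero_of_tsum_sq {a : ℤ → ℂ} (ha : Summable fun n => ‖a n‖ ^ 2)
    (h : ∑' n, ‖a n‖ ^ 2 = 0) (n : ℤ) : a n = 0 := by
  have h1 := (hasSum_zero_iff_of_nonneg (fun n => by positivity)).mp (h ▸ ha.hasSum)
  have h2 := congrFun h1 n
  simpa using h2

theorem tendsto_eta :
    Tendsto (fun k : ℕ => (32 * ((8 ^ k : ℕ) : ℝ) + 1) * (1 / 2) ^ (8 * 8 ^ k)) atTop (𝓝 0) := by
  have h1 : Tendsto (fun a : ℕ => (32 * (a : ℝ) + 1) * (1 / 2) ^ (8 * a)) atTop (𝓝 0) := by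
    have e1 := tendsto_self_mul_const_pow_of_lt_one (r := ((1 / 2 : ℝ) ^ 8)) (by positivity)
      (by norm_num)
    have e2 := tendsto_pow_atTop_nhds_zero_of_lt_one (r := ((1 / 2 : ℝ) ^ 8)) (by positivity)
      (by norm_num)
    have e3 := (e1.const_mul 32).add e2
    rw [mul_zero, add_zero] at e3
    refine e3.congr (fun a => ?_)
    rw [pow_mul]
    ring
  exact h1.comp (tendsto_pow_atTop_atTop_of_one_lt (by norm_num : 1 < 8))

/-! ### The reference vector -/

/-- The indicator function of `circle × {0}`. -/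
noncomputable def e0 : HH :=
  indicatorConstLp 2 (μ := mm) (s := (univ : Set UnitAddCircle) ×ˢ ({0} : Set ℤ))
    (MeasurableSet.univ.prod (measurableSet_singleton 0))
    (by rw [Measure.prod_prod]; simp) (1 : ℂ)

theorem ae_fibre {p : UnitAddCircle × ℤ → Prop} (h : ∀ᵐ x ∂mm, p x) :
    ∀ᵐ σ : UnitAddCircle, ∀ n : ℤ, p (σ, n) := by
  filter_upwards [Measure.ae_ae_of_ae_prod h] with σ h
  rwa [Measure.ae_count_iff] at h

theorem e0_fibre : ∀ᵐ σ : UnitAddCircle, ∀ n : ℤ, e0 (σ, n) = if n = 0 then 1 else 0 := by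
  filter_upwards [ae_fibre (indicatorConstLp_coeFn (p := 2) (μ := mm)
    (s := (univ : Set UnitAddCircle) ×ˢ ({0} : Set ℤ))
    (hs := MeasurableSet.univ.prod (measurableSet_singleton 0))
    (hμs := by rw [Measure.prod_prod]; simp) (c := (1 : ℂ)))] with σ h n
  unfold e0
  rw [h n]
  by_cases hn : n = 0
  · simp [hn]
  · simp [hn]

theorem eq_zero_of_fibre {f : HH} (h : ∀ n : ℤ, ∀ᵐ σ : UnitAddCircle, f (σ, n) = 0) : f = 0 := by
  rw [Lp.eq_zero_iff_ae_eq_zero]
  have hm : MeasurableSet {x : UnitAddCircle × ℤ | f x = 0} :=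
    (Lp.stronglyMeasurable f).measurable (measurableSet_singleton 0)
  change ∀ᵐ x ∂mm, f x = 0
  rw [Measure.ae_prod_iff_ae_ae hm]
  have h' : ∀ᵐ σ : UnitAddCircle, ∀ n, f (σ, n) = 0 := ae_all_iff.mpr h
  filter_upwards [h'] with σ h'
  rw [Measure.ae_count_iff]
  exact h'

/-! ### The main dichotomy -/

section Dichotomy

variable (u v : HH)

/-- Fibrewise orthogonality of the orbit of `f` under the operators and of `g`. -/
def Orth (f g : HH) : Prop := ∀ (j : ℤ) (t : UnitAddCircle), Adm t →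
  ∀ᵐ σ : UnitAddCircle, HasSum (fun n : ℤ =>
      ker j t (σ, n) * f (σ + t, n - j) * conj (g (σ, n))) 0

variable {u v}

theorem ker_ne_zero (j : ℤ) (t : UnitAddCircle) (x : UnitAddCircle × ℤ) : ker j t x ≠ 0 := by
  unfold ker
  exact zpow_ne_zero _ (by norm_num)

theorem ker_zero_zero (x : UnitAddCircle × ℤ) : ker 0 0 x = 1 := by
  unfold ker shf
  simp

/-- All the almost everywhere information used on one fibre. -/
def Good (u v : HH) (σ : UnitAddCircle) : Prop :=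
  (∀ n, u (σ, n) + v (σ, n) = if n = 0 then 1 else 0) ∧
  (Summable fun n => ‖u (σ, n)‖ ^ 2) ∧ (Summable fun n => ‖v (σ, n)‖ ^ 2) ∧
  HasSum (fun n => u (σ, n) * conj (v (σ, n))) 0

theorem ae_good (hadd : e0 = u + v) (huv : Orth u v) : ∀ᵐ σ : UnitAddCircle, Good u v σ := by
  have h1 := ae_fibre (Lp.coeFn_add u v)
  filter_upwards [h1, e0_fibre, fibre_summable u, fibre_summable v, huv 0 0 adm_zero]
    with σ h1 h2 h3 h4 h5
  refine ⟨fun n => ?_, h3, h4, ?_⟩
  · rw [← h2 n, hadd, h1 n, Pi.add_apply]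
  · refine h5.congr_fun (fun n => ?_)
    rw [ker_zero_zero, one_mul, add_zero, sub_zero]

theorem dichotomy (hadd : e0 = u + v) (huv : Orth u v) : u = 0 ∨ v = 0 := by
  have hgood := ae_good hadd huv
  let θ : UnitAddCircle → ℝ := fun σ => (u (σ, 0)).re
  have hm : Measurable θ := by
    have h1 : Measurable (fun x : UnitAddCircle × ℤ => u x) :=
      (Lp.stronglyMeasurable u).measurable
    exact Complex.measurable_re.comp (h1.comp measurable_prodMk_right)
  have hθ0 : ∀ᵐ σ, 0 ≤ θ σ := by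
    filter_upwards [hgood] with σ h
    exact (fibre_algebra _ _ h.1 h.2.1 h.2.2.1 h.2.2.2).1
  have hθ1 : ∀ᵐ σ, θ σ ≤ 1 := by
    filter_upwards [hgood] with σ h
    exact (fibre_algebra _ _ h.1 h.2.1 h.2.2.1 h.2.2.2).2.1
  have hkey : ∀ k, ∀ᵐ σ, rad k σ = -1 → θ (σ + rot k) * (1 - θ σ)
      ≤ (32 * ((8 ^ k : ℕ) : ℝ) + 1) * (1 / 2) ^ (8 * 8 ^ k) := by
    intro k
    have hall : ∀ᵐ σ : UnitAddCircle, ∀ j : ℤ, HasSum (fun n : ℤ =>
      ker j (rot k) (σ, n) * u (σ + rot k, n - j) * conj (v (σ, n))) 0 :=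
      ae_all_iff.mpr (fun j => huv j (rot k) (adm_rot k))
    filter_upwards [hgood, ae_add_rot hgood (rot k), hall] with σ h1 h2 h3 hr
    obtain ⟨a1, a2, a3, a4, a5, a6⟩ := fibre_algebra _ _ h1.1 h1.2.1 h1.2.2.1 h1.2.2.2
    obtain ⟨b1, b2, b3, b4, b5, b6⟩ := fibre_algebra _ _ h2.1 h2.2.1 h2.2.2.1 h2.2.2.2
    obtain ⟨c1, c2, c3⟩ := expo_key k σ hr
    have hβ : (fun n : ℤ => ‖conj (v (σ, n))‖ ^ 2) = fun n : ℤ => ‖v (σ, n)‖ ^ 2 := by
      funext n
      rw [RCLike.norm_conj]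
    have key := key_bound (8 ^ k) (expo σ) (expo (σ + rot k)) (expo_zero _) (expo_zero _)
      c1 c2 c3 (fun n => u (σ + rot k, n)) (fun n => conj (v (σ, n))) h2.2.1
      (by rw [b5]; exact b2) (by rw [hβ]; exact h1.2.2.1)
      (by rw [hβ, a6]; linarith) h3
    simp only [RCLike.norm_conj] at key
    rw [b3, a4, Complex.norm_real, Complex.norm_real, Real.norm_eq_abs, Real.norm_eq_abs,
      abs_of_nonneg b1, abs_of_nonneg (by linarith)] at key
    exact key
  have h01 := theta_zero_one θ hm hθ0 hθ1 _ tendsto_eta hkey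
  have hinv : ∀ t : UnitAddCircle, Adm t → ∀ᵐ σ, θ (σ + t) = 1 → θ σ = 1 := by
    intro t ht
    filter_upwards [hgood, ae_add_rot hgood t, huv 0 t ht, h01] with σ h1 h2 h3 h4 h5
    rcases h4 with h4 | h4
    · exfalso
      obtain ⟨a1, a2, a3, a4, a5, a6⟩ := fibre_algebra _ _ h1.1 h1.2.1 h1.2.2.1 h1.2.2.2
      obtain ⟨b1, b2, b3, b4, b5, b6⟩ := fibre_algebra _ _ h2.1 h2.2.1 h2.2.2.1 h2.2.2.2
      have h4' : (u (σ, 0)).re = 0 := h4
      have h5' : (u (σ + t, 0)).re = 1 := h5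
      have hu0 : ∀ n, u (σ, n) = 0 := eq_zero_of_tsum_sq h1.2.1 (by rw [a5, h4'])
      have h6 := eq_zero_of_hasSum_single 0 h3 (fun m hm => by
        have e1 := h1.1 m
        rw [if_neg hm, hu0 m, zero_add] at e1
        rw [e1, map_zero, mul_zero])
      simp only [sub_zero] at h6
      rw [b3, a4, h5', h4'] at h6
      simp [ker_ne_zero] at h6
    · exact h4
  rcases ae_dichotomy θ hm h01 (fun k => hinv (rot k) (adm_rot k))
    (fun k => by simpa only [sub_eq_add_neg] using hinv (-rot k) (adm_neg_rot k)) with h | h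
  · left
    refine eq_zero_of_fibre (fun n => ?_)
    filter_upwards [hgood, h] with σ h1 h2
    obtain ⟨a1, a2, a3, a4, a5, a6⟩ := fibre_algebra _ _ h1.1 h1.2.1 h1.2.2.1 h1.2.2.2
    exact eq_zero_of_tsum_sq h1.2.1 (by rw [a5]; exact h2) n
  · right
    refine eq_zero_of_fibre (fun n => ?_)
    filter_upwards [hgood, h] with σ h1 h2
    obtain ⟨a1, a2, a3, a4, a5, a6⟩ := fibre_algebra _ _ h1.1 h1.2.1 h1.2.2.1 h1.2.2.2
    have h2' : (u (σ, 0)).re = 1 := h2
    exact eq_zero_of_tsum_sq h1.2.2.1 (by rw [a6, h2', sub_self]) n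

end Dichotomy

/-! ### The theorem on the concrete space -/

/-- A bounded operator `T` has only trivial hyperinvariant closed subspaces. -/
theorem trivial_hyperinvariant (T : HH →L[ℂ] HH) (hT : IsW 1 0 univ T)
    (M : Submodule ℂ HH) (hM : IsClosed (M : Set HH))
    (hinv : ∀ A : HH →L[ℂ] HH, A * T = T * A → ∀ x ∈ M, A x ∈ M) : M = ⊥ ∨ M = ⊤ := by
  have : CompleteSpace M := hM.completeSpace_coe
  have horth : ∀ f ∈ M, ∀ g ∈ Mᗮ, Orth f g := by
    intro f hf g hg j t ht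
    refine fibre_orth ht f g (fun S A hA => ?_)
    exact Submodule.inner_left_of_mem_orthogonal (hinv A (isW_comm hT hA) f hf) hg
  obtain ⟨u, hu, v, hv, huv⟩ := M.exists_add_mem_mem_orthogonal e0
  rcases dichotomy huv (horth u hu v hv) with h | h
  · left
    have he : e0 ∈ Mᗮ := by rw [huv, h, zero_add]; exact hv
    rw [Submodule.eq_bot_iff]
    intro ξ hξ
    refine eq_zero_of_fibre (fun n => ?_)
    filter_upwards [horth ξ hξ e0 he (-n) 0 adm_zero, e0_fibre] with σ h1 h2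
    have h3 := eq_zero_of_hasSum_single 0 h1 (fun m hm => by
      rw [h2 m, if_neg hm, map_zero, mul_zero])
    rw [h2 0, if_pos rfl, map_one, mul_one, add_zero, zero_sub, neg_neg] at h3
    exact (mul_eq_zero.mp h3).resolve_left (ker_ne_zero _ _ _)
  · right
    have he : e0 ∈ M := by rw [huv, h, add_zero]; exact hu
    rw [← Submodule.orthogonal_eq_bot_iff, Submodule.eq_bot_iff]
    intro ξ hξ
    refine eq_zero_of_fibre (fun n => ?_)
    filter_upwards [horth e0 he ξ hξ n 0 adm_zero, e0_fibre] with σ h1 h2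
    simp only [add_zero] at h1
    have h3 := eq_zero_of_hasSum_single n h1 (fun m hm => by
      rw [h2 (m - n), if_neg (sub_ne_zero.mpr hm), mul_zero, zero_mul])
    rw [sub_self, h2 0, if_pos rfl, mul_one] at h3
    have h4 := (mul_eq_zero.mp h3).resolve_left (ker_ne_zero _ _ _)
    have h5 := congrArg conj h4
    rwa [Complex.conj_conj, map_zero] at h5

/-- The operator is not a scalar. -/
theorem not_scalar (T : HH →L[ℂ] HH) (hT : IsW 1 0 univ T) (c : ℂ) : T ≠ c • 1 := by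
  intro hc
  have h1 := ae_fibre (hT e0)
  have h2 := ae_fibre (Lp.coeFn_smul c e0)
  have h3 : ∀ᵐ σ : UnitAddCircle, False := by
    filter_upwards [h1, h2, e0_fibre] with σ h1 h2 h3
    have e1 := h1 1
    have e2 := h2 1
    have e3 : T e0 = c • e0 := by rw [hc]; rfl
    rw [e3, e2, Pi.smul_apply, h3 1] at e1
    simp only [shf, univ_prod_univ, indicator_univ, Pi.one_apply, one_mul, add_zero, sub_self,
      h3 0, if_pos] at e1
    simp only [mul_one, if_neg one_ne_zero, smul_zero] at e1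
    exact ker_ne_zero _ _ _ e1.symm
  have h4 : (volume : Measure UnitAddCircle) univ = 0 := by
    have h5 := ae_iff.mp h3
    simp only [not_false_eq_true, ofPred_true] at h5
    exact h5
  rw [AddCircle.measure_univ] at h4
  simp at h4

theorem exists_concrete : ∃ T : HH →L[ℂ] HH, (∀ c : ℂ, T ≠ c • 1) ∧
    ∀ M : Submodule ℂ HH, IsClosed (M : Set HH) →
      (∀ A : HH →L[ℂ] HH, A * T = T * A → ∀ x ∈ M, A x ∈ M) → M = ⊥ ∨ M = ⊤ := by
  obtain ⟨T, hT⟩ := exists_isW 1 adm_zero MeasurableSet.univ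
  exact ⟨T, not_scalar T hT, trivial_hyperinvariant T hT⟩

end Vale.Agent.P131
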