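import Mathlib
import Vale.Agent.Lib.P131.Main

/-!
# Transport to every separable infinite-dimensional complex Hilbert space
-/

namespace Vale.Agent.P131

open MeasureTheory Filter Set TopologicalSpace

theorem countable_of_orthonormal {ι E : Type*} [NormedAddCommGroup E] [InnerProductSpace ℂ E]
    [SeparableSpace E] {v : ι → E} (hv : Orthonormal ℂ v) : Countable ι := by
  have hdisj : (Set.univ : Set ι).PairwiseDisjoint (fun i => Metric.ball (v i) (1 / 2)) := by
    intro i _ j _ hij
    refine Metric.ball_disjoint_ball ?_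
    have h1 : ‖v i - v j‖ ^ 2 = 2 := by
      rw [norm_sub_sq (𝕜 := ℂ), hv.1 i, hv.1 j, hv.2 hij]
      norm_num
    rw [dist_eq_norm]
    by_contra hcon
    rw [not_le] at hcon
    nlinarith [norm_nonneg (v i - v j)]
  have h := hdisj.countable_of_isOpen (fun i _ => Metric.isOpen_ball)
    (fun i _ => ⟨v i, Metric.mem_ball_self (by norm_num)⟩)
  exact Set.countable_univ_iff.mp h

/-- A separable infinite-dimensional complex Hilbert space has a Hilbert basis indexed by `ℕ`. -/
theorem exists_nat_basis (E : Type*) [NormedAddCommGroup E] [InnerProductSpace ℂ E]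
    [CompleteSpace E] [SeparableSpace E] (hE : ¬ FiniteDimensional ℂ E) :
    Nonempty (HilbertBasis ℕ ℂ E) := by
  obtain ⟨w, b, hb⟩ := exists_hilbertBasis ℂ E
  have hc : Countable w := countable_of_orthonormal b.orthonormal
  have hi : Infinite w := by
    by_contra hcon
    rw [not_infinite_iff_finite] at hcon
    have := Fintype.ofFinite w
    exact hE (b.toOrthonormalBasis.toBasis.finiteDimensional_of_finite)
  obtain ⟨e⟩ := nonempty_denumerable w
  have ho : Orthonormal ℂ (b ∘ (Denumerable.eqv w).symm) :=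
    b.orthonormal.comp _ (Denumerable.eqv w).symm.injective
  refine ⟨HilbertBasis.mk ho ?_⟩
  rw [EquivLike.range_comp, b.dense_span]

theorem exists_isometryEquiv (E F : Type*) [NormedAddCommGroup E] [InnerProductSpace ℂ E]
    [CompleteSpace E] [SeparableSpace E] (hE : ¬ FiniteDimensional ℂ E)
    [NormedAddCommGroup F] [InnerProductSpace ℂ F]
    [CompleteSpace F] [SeparableSpace F] (hF : ¬ FiniteDimensional ℂ F) :
    Nonempty (E ≃ₗᵢ[ℂ] F) := by
  obtain ⟨b⟩ := exists_nat_basis E hE
  obtain ⟨c⟩ := exists_nat_basis F hF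
  exact ⟨b.repr.trans c.repr.symm⟩

theorem not_finiteDimensional_HH : ¬ FiniteDimensional ℂ HH := by
  intro hfd
  obtain ⟨T, hT1, hT2⟩ := exists_concrete
  have hnt : Nontrivial HH := by
    by_contra hcon
    rw [not_nontrivial_iff_subsingleton] at hcon
    exact hT1 0 (ContinuousLinearMap.ext fun x => Subsingleton.elim _ _)
  obtain ⟨c, hc⟩ := Module.End.exists_eigenvalue (T : HH →ₗ[ℂ] HH)
  have hmem : ∀ x, x ∈ Module.End.eigenspace (T : HH →ₗ[ℂ] HH) c ↔ T x = c • x := fun x => by
    rw [Module.End.mem_eigenspace_iff]; rfl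
  rcases hT2 (Module.End.eigenspace (T : HH →ₗ[ℂ] HH) c) (Submodule.closed_of_finiteDimensional _)
    (fun A hA x hx => by
      rw [hmem] at hx ⊢
      have h1 : T (A x) = A (T x) := (congrArg (fun B : HH →L[ℂ] HH => B x) hA).symm
      rw [h1, hx, map_smul]) with h | h
  · exact hc h
  · refine hT1 c (ContinuousLinearMap.ext fun x => ?_)
    have : x ∈ Module.End.eigenspace (T : HH →ₗ[ℂ] HH) c := by rw [h]; trivial
    rw [hmem] at this
    rw [this]
    rfl

theorem separable_HH : SeparableSpace HH := by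
  have : Fact ((2 : ENNReal) ≠ ⊤) := ⟨by norm_num⟩
  have : SecondCountableTopology HH := Lp.SecondCountableTopology
  infer_instance

theorem exists_general (H : Type*) [NormedAddCommGroup H] [InnerProductSpace ℂ H]
    [CompleteSpace H] [SeparableSpace H] (hH : ¬ FiniteDimensional ℂ H) :
    ∃ T : H →L[ℂ] H, (∀ c : ℂ, T ≠ c • ContinuousLinearMap.id ℂ H) ∧
      ∀ M : Submodule ℂ H, IsClosed (M : Set H) →
        (∀ A : H →L[ℂ] H, A.comp T = T.comp A → ∀ x ∈ M, A x ∈ M) → M = ⊥ ∨ M = ⊤ := by
  have := separable_HH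
  obtain ⟨U⟩ := exists_isometryEquiv H HH hH not_finiteDimensional_HH
  obtain ⟨T, hT1, hT2⟩ := exists_concrete
  let V : H →L[ℂ] HH := U.toContinuousLinearEquiv.toContinuousLinearMap
  let W : HH →L[ℂ] H := U.symm.toContinuousLinearEquiv.toContinuousLinearMap
  have hVW : ∀ y, V (W y) = y := fun y => U.apply_symm_apply y
  have hWV : ∀ x, W (V x) = x := fun x => U.symm_apply_apply x
  refine ⟨W.comp (T.comp V), fun c hc => ?_, fun M hM hinv => ?_⟩
  · refine hT1 c (ContinuousLinearMap.ext fun y => ?_)
    have h1 := congrArg (fun B : H →L[ℂ] H => B (W y)) hc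
    have h2 : W (T (V (W y))) = c • W y := h1
    rw [hVW] at h2
    have h3 := congrArg V h2
    rw [hVW, map_smul, hVW] at h3
    exact h3
  · let N : Submodule ℂ HH := M.comap (W : HH →ₗ[ℂ] H)
    have hNmem : ∀ y, y ∈ N ↔ W y ∈ M := fun y => Iff.rfl
    have hNc : IsClosed (N : Set HH) := hM.preimage W.continuous
    have hN := hT2 N hNc (fun A hA y hy => by
      rw [hNmem] at hy ⊢
      have h1 := hinv (W.comp (A.comp V)) (by
        ext1 x
        change W (A (V (W (T (V x))))) = W (T (V (W (A (V x)))))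
        rw [hVW, hVW]
        have h2 : A (T (V x)) = T (A (V x)) :=
          congrArg (fun B : HH →L[ℂ] HH => B (V x)) hA
        rw [h2]) (W y) hy
      change W (A (V (W y))) ∈ M at h1
      rwa [hVW] at h1)
    rcases hN with h | h
    · left
      rw [Submodule.eq_bot_iff]
      intro x hx
      have h1 : V x ∈ N := by rw [hNmem, hWV]; exact hx
      rw [h, Submodule.mem_bot] at h1
      have h2 := congrArg W h1
      rwa [hWV, map_zero] at h2
    · right
      rw [Submodule.eq_top_iff']
      intro x
      have h1 : V x ∈ N := by rw [h]; trivial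
      rwa [hNmem, hWV] at h1

end Vale.Agent.P131
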